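import Vale.Agent.P125.Main

/-!
P125: nontrivial Markov type implies an equivalent uniformly smooth norm, and superreflexivity.
-/

namespace Vale.Agent.Results.P125.MarkovTypeSuperreflexive

open Vale.Agent.P125

/-- A real normed space with Markov type `p` for some `p > 1` has an equivalent uniformly smooth
norm and an equivalent uniformly convex norm. -/
theorem result (X : Type*) [NormedAddCommGroup X] [NormedSpace ℝ X] (p : ℝ) (hp : 1 < p)
    (h : MarkovType X p) :
    (∃ N : Seminorm ℝ X, EquivNorm N ∧ UnifSmooth N) ∧
      (∃ N : Seminorm ℝ X, EquivNorm N ∧ UnifConvex N) :=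
  ⟨exists_unifSmooth_of_fewJumps_dual (fewJumps_of_markovType hp h).2,
    exists_unifConvex_of_fewJumps (fewJumps_of_markovType hp h).1⟩

end Vale.Agent.Results.P125.MarkovTypeSuperreflexive
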